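import Vale.Agent.P221.H72.Defs

/-!
# P221: homotopy groups of a telescope whose cofibres are more and more coconnective
-/

open CategoryTheory MonoidalCategory Limits Pretriangulated
open Vale.Agent.P251.T Vale.Agent.P251.S Vale.Agent.P251.H Vale.Agent.P251.M
  Vale.Agent.P251.I

universe v u

set_option linter.unusedSectionVars false

namespace Vale.Agent.P221

variable {T : Type u} [Category.{v} T] [Preadditive T] [HasZeroObject T]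
    [HasShift T ℤ] [∀ n : ℤ, (shiftFunctor T n).Additive] [Pretriangulated T] [IsTriangulated T]
    [MonoidalCategory T] [SymmetricCategory T] [TensorTriangulated T] [MonoidalClosed T]
    [HasCoproducts.{0} T] [HasProducts.{0} T] [StableCat T]

/-- lifting along the first map of a triangle -/
theorem tel_lift {X Y C : T} {f : X ⟶ Y} {g : Y ⟶ C} {h : C ⟶ X⟦(1 : ℤ)⟧}
    (D : Triangle.mk f g h ∈ distTriang T) {b : ℤ} (hC : Above b C) {k : ℤ} (hk : b ≤ k)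
    (x : (𝟙_ T)⟦k⟧ ⟶ Y) : ∃ y : (𝟙_ T)⟦k⟧ ⟶ X, y ≫ f = x := by
  obtain ⟨y, hy⟩ := Triangle.coyoneda_exact₂ _ D x (hC k hk _)
  exact ⟨y, hy.symm⟩

/-- injectivity of the first map of a triangle -/
theorem tel_inj {X Y C : T} {f : X ⟶ Y} {g : Y ⟶ C} {h : C ⟶ X⟦(1 : ℤ)⟧}
    (D : Triangle.mk f g h ∈ distTriang T) {b : ℤ} (hC : Above b C) {k : ℤ} (hk : b ≤ k + 1)
    (x : (𝟙_ T)⟦k⟧ ⟶ X) (hx : x ≫ f = 0) : x = 0 := by
  let e : ((𝟙_ T)⟦k⟧)⟦(1 : ℤ)⟧ ≅ (𝟙_ T)⟦k + 1⟧ :=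
    ((shiftFunctorAdd' T k 1 (k + 1) rfl).app (𝟙_ T)).symm
  have h1 : x⟦(1 : ℤ)⟧' ≫ f⟦(1 : ℤ)⟧' = 0 := by
    rw [← Functor.map_comp, hx, Functor.map_zero]
  obtain ⟨y, hy⟩ := Triangle.coyoneda_exact₁ _ D (x⟦(1 : ℤ)⟧') h1
  have h2 : e.inv ≫ y = 0 := hC (k + 1) hk _
  have h3 : y = 0 := by rw [← cancel_epi e.inv, h2, comp_zero]
  have h4 : x⟦(1 : ℤ)⟧' = 0 := by
    refine Eq.trans hy ?_
    rw [h3, zero_comp]
    rfl
  apply (shiftFunctor T (1 : ℤ)).map_injective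
  rw [h4, Functor.map_zero]

section

variable {p : ℕ} {X C : ℕ → T} {f : ∀ n, X n ⟶ X (n + 1)} {g : ∀ n, X (n + 1) ⟶ C n}
    {h : ∀ n, C n ⟶ (X n)⟦(1 : ℤ)⟧} (D : ∀ n, Triangle.mk (f n) (g n) (h n) ∈ distTriang T)
    {c d : ℤ} (hd : 0 < d) (hC : ∀ n : ℕ, Above (c - n * d) (C n))

include D hd hC in
/-- every homotopy class of a later stage comes from stage `n` -/
theorem tel_descend (n j : ℕ) {k : ℤ} (hk : c - n * d ≤ k) (x : (𝟙_ T)⟦k⟧ ⟶ X (n + j)) :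
    ∃ y : (𝟙_ T)⟦k⟧ ⟶ X n, y ≫ trT f n j = x := by
  induction j with
  | zero => exact ⟨x, by simp⟩
  | succ j ih =>
    have h1 : c - ((n + j : ℕ) : ℤ) * d ≤ k := by
      push_cast
      nlinarith [mul_nonneg (Int.natCast_nonneg j) hd.le]
    obtain ⟨x', hx'⟩ := tel_lift (D (n + j)) (hC (n + j)) h1 x
    obtain ⟨y, hy⟩ := ih x'
    exact ⟨y, by rw [trT_succ, ← Category.assoc, hy]; exact hx'⟩

include D hd hC in
theorem tel_trT_inj (n j : ℕ) {k : ℤ} (hk : c - n * d ≤ k + 1) (x : (𝟙_ T)⟦k⟧ ⟶ X n)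
    (hx : x ≫ trT f n j = 0) : x = 0 := by
  induction j with
  | zero => simpa using hx
  | succ j ih =>
    have h1 : c - ((n + j : ℕ) : ℤ) * d ≤ k + 1 := by
      push_cast
      nlinarith [mul_nonneg (Int.natCast_nonneg j) hd.le]
    refine ih (tel_inj (D (n + j)) (hC (n + j)) h1 _ ?_)
    rw [trT_succ, ← Category.assoc] at hx
    exact hx

include D hd hC in
/-- every homotopy class of the telescope in degree `k ≥ c - n * d` comes from stage `n` -/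
theorem tel_surj (U : Tel f) (n : ℕ) {k : ℤ} (hk : c - n * d ≤ k) (z : (𝟙_ T)⟦k⟧ ⟶ U.obj) :
    ∃ y : (𝟙_ T)⟦k⟧ ⟶ X n, y ≫ U.ι n = z := by
  obtain ⟨m, a, rfl⟩ := U.exists_factor (Vale.Agent.P251.X.cpt_sphere k) z
  rcases le_total m n with hmn | hmn
  · exact ⟨a ≫ trTo f hmn, by rw [Category.assoc, U.trTo_ι]⟩
  · obtain ⟨j, rfl⟩ := Nat.exists_eq_add_of_le hmn
    obtain ⟨y, rfl⟩ := tel_descend D hd hC n j hk a
    exact ⟨y, by rw [Category.assoc, U.trT_ι]⟩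

end

theorem tel_evIso {p : ℕ} {X C : ℕ → T} {f : ∀ n, X n ⟶ X (n + 1)} {g : ∀ n, X (n + 1) ⟶ C n}
    {h : ∀ n, C n ⟶ (X n)⟦(1 : ℤ)⟧} (D : ∀ n, Triangle.mk (f n) (g n) (h n) ∈ distTriang T)
    {Z : T} {ι : ∀ n, X n ⟶ Z} (hZ : IsTel f ι) {c d : ℤ} (hd : 0 < d)
    (hC : ∀ n : ℕ, Above (c - n * d) (C n)) (hX : ∀ n, FT p (X n)) :
    EvIso (c + 1) (ι 0) ∧ FT p Z := by
  let U : Tel f := hZ.tel
  have hU : ∀ (n : ℕ) {k : ℤ}, c - n * d ≤ k → ∀ z : (𝟙_ T)⟦k⟧ ⟶ Z,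
      ∃ y : (𝟙_ T)⟦k⟧ ⟶ X n, y ≫ ι n = z := fun n k hk z => tel_surj D hd hC U n hk z
  refine ⟨fun k hk => ⟨fun x x' hxx => ?_, fun z => ?_⟩, fun k => ?_⟩
  · dsimp only at hxx
    rw [← sub_eq_zero] at hxx ⊢
    rw [← Preadditive.sub_comp] at hxx
    obtain ⟨j, hj⟩ := U.exists_eq_zero (n := 0) (Vale.Agent.P251.X.cpt_sphere k) (x - x') hxx
    refine tel_trT_inj D hd hC 0 j ?_ _ hj
    push_cast
    linarith
  · exact hU 0 (by push_cast; linarith) z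
  · obtain ⟨n, hn⟩ : ∃ n : ℕ, c - n * d ≤ k := by
      refine ⟨(c - k).toNat, ?_⟩
      have h1 := Int.self_le_toNat (c - k)
      have h2 : ((c - k).toNat : ℤ) ≤ ((c - k).toNat : ℤ) * d :=
        le_mul_of_one_le_right (Int.natCast_nonneg _) hd
      linarith
    have hs := hU n hn
    obtain ⟨hfin, htor⟩ := hX n k
    refine ⟨Finite.of_surjective (fun y : (𝟙_ T)⟦k⟧ ⟶ X n => y ≫ ι n) hs, fun z => ?_⟩
    obtain ⟨y, rfl⟩ := hs z
    obtain ⟨N, hN⟩ := htor y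
    exact ⟨N, by rw [← Preadditive.zsmul_comp, hN, zero_comp]⟩

end Vale.Agent.P221
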